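import Vale.Agent.P098.R.FDefs
import Vale.Agent.P098.Bdl.B30

/-! # One-homogeneous global minimizers of the one-phase Bernoulli energy are flat up to
dimension six -/

open MeasureTheory Vale.Agent.P098.FDefs
open scoped RealInnerProductSpace

namespace Vale.Agent.Results.P098.FlatSix

/-- In dimension `d ≤ 6`, every one-homogeneous global minimizer of the one-phase Bernoulli energy
is almost everywhere zero or a half-plane solution. -/
theorem result : ∀ d : ℕ, 1 ≤ d → d ≤ 6 → ∀ u : EuclideanSpace ℝ (Fin d) → ℝ,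
    IsGlobalMinimizer u → IsOneHomogeneous u →
    (u =ᵐ[volume] (fun _ => 0)) ∨
      ∃ e : EuclideanSpace ℝ (Fin d), ‖e‖ = 1 ∧ u =ᵐ[volume] fun x => max ⟪x, e⟫ 0 :=
  fun _ h1 h6 u hu hh => Vale.Agent.P098.flat_le_six h1 h6 u hu hh

end Vale.Agent.Results.P098.FlatSix
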